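import Vale.Agent.P263.FR.H754.KunF
import Vale.Agent.P263.FR.H663.FinFam
import Vale.Agent.P263.K.Kun2
import Vale.Agent.P263.TJ.Quo
import Vale.Agent.P263.TJ.L1A

/-!
# P263, block V5-C: the Künneth theorem

* `kun_prod` : a homogeneous cocycle of `X × Y`, `H^j(X)` finite, is a finite sum of exterior
  products of homogeneous cocycles and a coboundary.
* `kun_top` : the same for the singular cochains of a product of two spaces.
-/

noncomputable section

namespace Vale.Agent.P263.FR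

open Vale.Agent.P263.S Vale.Agent.P263.E Vale.Agent.P263.H83 Vale.Agent.P263.G2
  Vale.Agent.P263.TJ Vale.Agent.P263.K CosMod Kun

/-- a pair of homogeneous cocycles of `X` and of `Y` of total degree `N` -/
structure Cross (X Y : SS) (N : ℕ) where
  /-- the degree of the first factor -/
  n : ℕ
  /-- the degree of the second factor -/
  m : ℕ
  h : N = n + m
  /-- the first factor -/
  a : Cc X
  /-- the second factor -/
  b : Cc Y
  ha : Cc.IsDeg n a
  da : Cc.d a = 0
  hb : Cc.IsDeg m b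
  db : Cc.d b = 0

namespace Cross

variable {X Y : SS} {N : ℕ}

/-- the exterior product -/
def cr (x : Cross X Y N) : Cc (X.prod Y) :=
  Cc.cup 1 (Cc.pull (SS.fst X Y) x.a) (Cc.pull (SS.snd X Y) x.b)

theorem d_cr (x : Cross X Y N) : Cc.d x.cr = 0 :=
  cup_one_cocycle (by rw [← pull_d, x.da, pull_zero]) (by rw [← pull_d, x.db, pull_zero])

theorem isDeg_cr (x : Cross X Y N) : Cc.IsDeg N x.cr :=
  (x.ha.pull _).cup (x.hb.pull _) (by have := x.h; omega)

/-- the class in the tensor product -/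
def crT (x : Cross X Y N) : (tensor (SS.F (ZMod 2) X) (SS.F (ZMod 2) Y)).H N :=
  crH x.n x.m N (clc x.n x.a x.da) (clc x.m x.b x.db)

theorem map_crT (x : Cross X Y N) :
    (chi Y (SS.F (ZMod 2) X)).mapH N x.crT = (toFnF X Y).mapH N (clc N x.cr x.d_cr) := by
  rw [crT, ← mapH_toFnF X Y x.h, ← clc_pull (SS.fst X Y) x.da (by rw [← pull_d, x.da, pull_zero]),
    ← clc_pull (SS.snd X Y) x.db (by rw [← pull_d, x.db, pull_zero]),
    cupH_clc (fun _ _ _ _ => rfl) x.h (x.ha.pull _) (x.hb.pull _)]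
  rfl

end Cross

theorem clc_sum {X : SS} {N : ℕ} {ι : Type} (s : Finset ι) (u : ι → Cc X)
    (hu : ∀ i, Cc.d (u i) = 0) (h : Cc.d (∑ i ∈ s, u i) = 0) :
    clc N (∑ i ∈ s, u i) h = ∑ i ∈ s, clc N (u i) (hu i) := by
  classical
  induction s using Finset.induction_on with
  | empty =>
    refine Eq.trans ?_ (Finset.sum_empty (f := fun i => clc N (u i) (hu i))).symm
    exact CosMod.cls_eq_zero_iff.2 (zero_mem _)
  | insert i s hi ih =>
    have h1 : Cc.d (∑ i ∈ s, u i) = 0 := by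
      rw [d_sum]
      exact Finset.sum_eq_zero fun i _ => hu i
    have e := clc_congr (n := N) h (v := u i + ∑ i ∈ s, u i) (by rw [d_add, hu i, h1, add_zero])
      (by rw [Finset.sum_insert hi])
    rw [e, clc_add (hu i) h1, ih h1]
    exact (Finset.sum_insert (f := fun i => clc N (u i) (hu i)) hi).symm

theorem crSpan_sum {X Y : SS} {N : ℕ} {z : (tensor (SS.F (ZMod 2) X) (SS.F (ZMod 2) Y)).H N}
    (hz : z ∈ crSpan (SS.F (ZMod 2) X) (SS.F (ZMod 2) Y) N) :
    ∃ (ι : Type) (_ : Fintype ι) (x : ι → Cross X Y N), z = ∑ i, (x i).crT := by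
  induction hz using Submodule.span_induction with
  | mem w hw =>
    obtain ⟨n, m, a, b, h, rfl⟩ := hw
    obtain ⟨a, da, ha, rfl⟩ := exists_clc a
    obtain ⟨b, db, hb, rfl⟩ := exists_clc b
    exact ⟨Unit, inferInstance, fun _ => ⟨n, m, h, a, b, ha, da, hb, db⟩, by
      rw [Fintype.sum_unique]; rfl⟩
  | zero => exact ⟨Empty, inferInstance, Empty.elim, by rw [Fintype.sum_empty]⟩
  | add w v _ _ hw hv =>
    obtain ⟨ι, _, x, rfl⟩ := hw
    obtain ⟨κ, _, y, rfl⟩ := hv
    exact ⟨ι ⊕ κ, inferInstance, Sum.elim x y, by rw [Fintype.sum_sum_type]; rfl⟩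
  | smul r w _ hw =>
    obtain ⟨ι, _, x, rfl⟩ := hw
    rcases (show r = 0 ∨ r = 1 by revert r; decide) with rfl | rfl
    · refine ⟨Empty, inferInstance, Empty.elim, ?_⟩
      rw [zero_smul, Fintype.sum_empty (ι := Empty)]
    · exact ⟨ι, inferInstance, x, by rw [one_smul]⟩

/-- **Künneth theorem** for simplicial sets, first factor of finite type. -/
theorem kun_prod {X Y : SS} {N : ℕ}
    (hfin : ∀ j ≤ N, Module.Finite (ZMod 2) ((SS.F (ZMod 2) X).H j)) {t : Cc (X.prod Y)}
    (ht : Cc.IsDeg N t) (dt : Cc.d t = 0) :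
    ∃ (ι : Type) (_ : Fintype ι) (x : ι → Cross X Y N) (s : Cc (X.prod Y)),
      t = ∑ i, (x i).cr + Cc.d s := by
  obtain ⟨z, hz⟩ := chi_surj Y N _ hfin ((toFnF X Y).mapH N (clc N t dt))
  obtain ⟨ι, _, x, rfl⟩ := crSpan_sum (kun_span N _ _ z)
  have h0 : Cc.d (∑ i, (x i).cr) = 0 := by
    rw [d_sum]
    exact Finset.sum_eq_zero fun i _ => (x i).d_cr
  have h1 : clc N t dt = clc N (∑ i, (x i).cr) h0 := by
    apply (Hom.mapH_bijective (toFnF X Y) (toFnF_bijective X Y) N).1
    rw [← hz, map_sum, clc_sum _ _ (fun i => (x i).d_cr), map_sum]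
    exact Finset.sum_congr rfl fun i _ => (x i).map_crT
  have h2 : Cc.d (t + ∑ i, (x i).cr) = 0 := by rw [d_add, dt, h0, add_zero]
  have h3 : clc N (t + ∑ i, (x i).cr) h2 = 0 := by
    rw [clc_add dt h0, h1, ← two_smul (ZMod 2), show (2 : ZMod 2) = 0 from rfl, zero_smul]
  have h4 : Cc.IsDeg N (∑ i, (x i).cr) := by
    have : ∀ s : Finset ι, Cc.IsDeg N (∑ i ∈ s, (x i).cr) := by
      classical
      intro s
      induction s using Finset.induction_on with
      | empty => exact fun _ _ _ => rfl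
      | insert i s hi ih =>
        rw [Finset.sum_insert hi]
        exact (x i).isDeg_cr.add ih
    exact this _
  obtain ⟨s, hs⟩ := (clc_eq_zero_iff (ht.add h4) h2).1 h3
  refine ⟨ι, inferInstance, x, s, ?_⟩
  rw [← hs, add_comm t, ← add_assoc, cc_self, zero_add]

/-- finite type, from a finite family of cocycles -/
theorem finite_H {X : SS} {j n : ℕ} (z : Fin n → Cc X)
    (hz : ∀ i, Cc.IsDeg j (z i) ∧ Cc.d (z i) = 0)
    (h : ∀ u : Cc X, Cc.IsDeg j u → Cc.d u = 0 → ∃ i v, u = z i + Cc.d v) :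
    Module.Finite (ZMod 2) ((SS.F (ZMod 2) X).H j) := by
  have hf : Finite ((SS.F (ZMod 2) X).H j) := by
    refine Finite.of_surjective (fun i => clc j (z i) (hz i).2) fun x => ?_
    obtain ⟨u, hd, hu, rfl⟩ := exists_clc x
    obtain ⟨i, v, hv⟩ := h u hu hd
    have h2 : Cc.d (u + z i) = 0 := by rw [d_add, hd, (hz i).2, add_zero]
    have h3 : clc j (u + z i) h2 = 0 := (clc_eq_zero_iff (hu.add (hz i).1) h2).2 ⟨v, by
      rw [hv, add_comm (z i), add_assoc, cc_self, add_zero]⟩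
    refine ⟨i, ?_⟩
    rw [clc_add hd (hz i).2] at h3
    have h4 : clc j u hd + clc j u hd = 0 := by
      rw [← two_smul (ZMod 2), show (2 : ZMod 2) = 0 from rfl, zero_smul]
    exact add_left_cancel (h3.trans h4.symm)
  exact Module.Finite.of_finite

/-- finite type for spaces -/
theorem FinC.finite_H {X : Type} [TopologicalSpace X] {j : ℕ} (h : FinC X j) :
    Module.Finite (ZMod 2) ((SS.F (ZMod 2) (sing X)).H j) := by
  obtain ⟨n, z, hz, h⟩ := h.reps
  exact FR.finite_H z hz h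

/-! ### spaces -/

variable (X Y : Type) [TopologicalSpace X] [TopologicalSpace Y]

/-- the singular simplices of a product -/
def unpk : SS.Map (sing (X × Y)) ((sing X).prod (sing Y)) where
  app σ := (ofC ((fstC X Y).comp (toC σ)), ofC ((sndC X Y).comp (toC σ)))
  nat _ _ := rfl

/-- the inverse -/
def pk : SS.Map ((sing X).prod (sing Y)) (sing (X × Y)) where
  app z := ofC ((toC z.1).prodMk (toC z.2))
  nat _ _ := rfl

variable {X Y}

theorem pull_unpk_pk (t : Cc (sing (X × Y))) : Cc.pull (unpk X Y) (Cc.pull (pk X Y) t) = t := rfl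

/-- **Künneth theorem** for spaces, first factor of finite type. -/
theorem kun_top {N : ℕ} (hfin : ∀ j ≤ N, FinC X j) {t : Cc (sing (X × Y))}
    (ht : Cc.IsDeg N t) (dt : Cc.d t = 0) :
    ∃ (ι : Type) (_ : Fintype ι) (x : ι → Cross (sing X) (sing Y) N) (s : Cc (sing (X × Y))),
      t = ∑ i, Cc.cup 1 (Cc.pull (singMap (fstC X Y)) (x i).a)
        (Cc.pull (singMap (sndC X Y)) (x i).b) + Cc.d s := by
  obtain ⟨ι, _, x, s, hs⟩ := kun_prod (fun j hj => (hfin j hj).finite_H) (ht.pull (pk X Y))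
    (by rw [← pull_d, dt, pull_zero])
  refine ⟨ι, inferInstance, x, Cc.pull (unpk X Y) s, ?_⟩
  rw [← pull_unpk_pk t, hs, pull_add, ← pull_d, pull_sum]
  congr 1

/-- the same with the other order of the factors -/
theorem kun_top' {N : ℕ} (hfin : ∀ j ≤ N, FinC X j) {t : Cc (sing (X × Y))}
    (ht : Cc.IsDeg N t) (dt : Cc.d t = 0) :
    ∃ (ι : Type) (_ : Fintype ι) (x : ι → Cross (sing X) (sing Y) N) (s : Cc (sing (X × Y))),
      t = ∑ i, Cc.cup 1 (Cc.pull (singMap (sndC X Y)) (x i).b)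
        (Cc.pull (singMap (fstC X Y)) (x i).a) + Cc.d s := by
  obtain ⟨ι, _, x, s, hs⟩ := kun_top hfin ht dt
  have hc : ∀ i, Cc.cup 1 (Cc.pull (singMap (fstC X Y)) (x i).a)
      (Cc.pull (singMap (sndC X Y)) (x i).b) =
      Cc.cup 1 (Cc.pull (singMap (sndC X Y)) (x i).b) (Cc.pull (singMap (fstC X Y)) (x i).a) +
        Cc.d (Cc.cup 2 (Cc.pull (singMap (fstC X Y)) (x i).a)
          (Cc.pull (singMap (sndC X Y)) (x i).b)) := fun i => by
    have h := CupC.cup_comm_coh (Cc.cupC (sing (X × Y))) 1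
      (x := Cc.pull (singMap (fstC X Y)) (x i).a) (y := Cc.pull (singMap (sndC X Y)) (x i).b)
      (by
        show Cc.d _ = 0
        rw [← pull_d, (x i).da, pull_zero])
      (by
        show Cc.d _ = 0
        rw [← pull_d, (x i).db, pull_zero])
    have h' : Cc.cup 1 (Cc.pull (singMap (fstC X Y)) (x i).a)
        (Cc.pull (singMap (sndC X Y)) (x i).b) +
        Cc.cup 1 (Cc.pull (singMap (sndC X Y)) (x i).b)
          (Cc.pull (singMap (fstC X Y)) (x i).a) =
        Cc.d (Cc.cup 2 (Cc.pull (singMap (fstC X Y)) (x i).a)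
          (Cc.pull (singMap (sndC X Y)) (x i).b)) := h
    rw [← h', add_comm (Cc.cup 1 (Cc.pull (singMap (fstC X Y)) (x i).a) _), ← add_assoc, cc_self,
      zero_add]
  refine ⟨ι, inferInstance, x, ∑ i, Cc.cup 2 (Cc.pull (singMap (fstC X Y)) (x i).a)
    (Cc.pull (singMap (sndC X Y)) (x i).b) + s, ?_⟩
  rw [d_add, d_sum, ← add_assoc, ← Finset.sum_add_distrib, hs]
  congr 1
  exact Finset.sum_congr rfl fun i _ => hc i

end Vale.Agent.P263.FR

end
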