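import Vale.Agent.P263.FR.H754.LamM
import Vale.Agent.P263.KJ.SqPV
import Vale.Agent.P263.TJ.GamNat
import Vale.Agent.P263.KJ.FamVal

/-!
# P263, block V5-E1: the generalised functional square of the graph of the Kahn-Priddy map, value

* `theta_lamG` : the generalised functional square of the graph `G` on the cocycle `y` of degree `q`
  is `∑_{k ≤ q} w^k (y ∪_k y)`, `w` the pull back of the class of the double cover.
* `DstN_lamG` : the transfer of `y` is null.
-/

open CategoryTheory MonoidalCategory Filter Topology OnePoint Finset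
open scoped InnerProductSpace RealInnerProductSpace

namespace Vale.Agent.P263.FR

open Vale.Agent.P263.S hiding sn sn_add
open Vale.Agent.P263.E Vale.Agent.P263.H83 Vale.Agent.P263.G2 Vale.Agent.P263.TJ
open Vale.Agent.P263.KJ CupC

section

variable {M : Type} [TopologicalSpace M] [CompactSpace M] [T2Space M]
  {V : Type} [NormedAddCommGroup V] [InnerProductSpace ℝ V] [FiniteDimensional ℝ V]
  {W : Type} [NormedAddCommGroup W] [NormedSpace ℝ W]

/-! ### the sum over the two ordered pairs of lifts -/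

omit [CompactSpace M] [T2Space M] in
variable (M V) in
/-- the unit vectors of a pair of labels -/
noncomputable def qM : SS.Map (PL (mLab M V).lab) (PL (svLab V).lab) where
  app x := ⟨(sV (toM (M := M) x.1.1), sV (toM (M := M) x.1.2)), x.2⟩
  nat _ _ := rfl

omit [CompactSpace M] [T2Space M] [FiniteDimensional ℝ V] [InnerProductSpace ℝ V] in
theorem qM_vol (k : ℕ) : Cc.pull (qM M V) (vol (svLab V).lab k) = vol (mLab M V).lab k := by
  have h0 : Cc.pull (qM M V) (ool (svLab V).lab) = ool (mLab M V).lab := rfl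
  induction k with
  | zero => exact h0
  | succ k ih =>
    show Cc.pull (qM M V) (Cc.cup 1 (Cc.d (ool (svLab V).lab)) (vol (svLab V).lab k)) =
      Cc.cup 1 (Cc.d (ool (mLab M V).lab)) (vol (mLab M V).lab k)
    rw [pull_cup, pull_d, h0, ih]

omit [CompactSpace M] [T2Space M] [FiniteDimensional ℝ V] [InnerProductSpace ℝ V] in
theorem exl_mLab (k : ℕ) {p : ℕ} (a b : C(G2.Dl p, M × SV V)) :
    exl (mLab M V).lab (vol (mLab M V).lab k) (p := p) a b =
      exl (svLab V).lab (vol (svLab V).lab k) (p := p) (sV a) (sV b) := by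
  rw [← qM_vol]
  unfold exl
  by_cases h : ∀ i, (svLab V).lab.at' (p := p) (sV a) i ≠ (svLab V).lab.at' (p := p) (sV b) i
  · have h' : ∀ i, (mLab M V).lab.at' (p := p) a i ≠ (mLab M V).lab.at' (p := p) b i := h
    rw [dif_pos h, dif_pos h']
    rfl
  · have h' : ¬ ∀ i, (mLab M V).lab.at' (p := p) a i ≠ (mLab M V).lab.at' (p := p) b i := h
    rw [dif_neg h, dif_neg h']

variable {K : ℕ} (φ : (V × W) ≃L[ℝ] (Fin K → ℝ)) (l : C(M, PV V))

/-- the labels over a simplex -/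
noncomputable def lbM : SS.Map (sing M) (GLn (mLab M V).lab 2) where
  app {p} x := ⟨((mF φ l).idx (p := p) x : Finset ((mLab M V).L.obj p)), (mF φ l).good x,
    mF_card φ l (p := p) x⟩
  nat {p q} f x := Subtype.ext (by
    ext a
    refine ((mF φ l).mem_pull (dmap f) x a).trans ?_
    exact (mem_lmap (l := (mLab M V).lab) (f := f)).symm)

theorem pull_lbM_tln {w : Cc (sing (PV V))} (hw : (dcP V).Cl w (oV V)) (j : ℕ) :
    Cc.pull (lbM φ l) (tln (mLab M V).lab 2 j) = Cc.pull (singMap l) (Cc.pw w j) := by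
  rw [← pull_lb_tln φ hw j]
  funext p x
  obtain ⟨x', hx'⟩ : ∃ x' : C(G2.Dl p, M), x' = toC x := ⟨_, rfl⟩
  have h1 : Cc.pull (lbM φ l) (tln (mLab M V).lab 2 j) p x =
      ∑ a ∈ (lifts (l.comp x')).map (pairE x'), ∑ b ∈ (lifts (l.comp x')).map (pairE x'),
        exl (mLab M V).lab (vol (mLab M V).lab j) (p := p) a b := by
    rw [hx']
    rfl
  have h2 : Cc.pull (singMap l) (Cc.pull (PFam.lb (lamF_card φ)) (tln (svLab V).lab 2 j)) p x =
      ∑ a ∈ lifts (l.comp x'), ∑ b ∈ lifts (l.comp x'),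
        exl (svLab V).lab (vol (svLab V).lab j) (p := p) a b := by
    rw [hx']
    rfl
  have h3 : ∑ a ∈ (lifts (l.comp x')).map (pairE x'), ∑ b ∈ (lifts (l.comp x')).map (pairE x'),
        exl (mLab M V).lab (vol (mLab M V).lab j) (p := p) a b =
      ∑ a ∈ lifts (l.comp x'), ∑ b ∈ lifts (l.comp x'),
        exl (svLab V).lab (vol (svLab V).lab j) (p := p) a b := by
    refine (sum_map _ _ _).trans (sum_congr rfl fun a _ => ?_)
    refine (sum_map _ _ _).trans (sum_congr rfl fun b _ => ?_)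
    exact exl_mLab j _ _
  exact h1.trans (h3.trans h2.symm)

/-! ### equal labels -/

/-- the point of a label -/
noncomputable def ellM (M V : Type) [TopologicalSpace M] [NormedAddCommGroup V]
    [InnerProductSpace ℝ V] : SS.Map (mLab M V).L.ss (sing M) :=
  singMap (⟨Prod.fst, continuous_fst⟩ : C(M × SV V, M))

/-- the labels over a simplex, with the simplex itself as sheets -/
theorem gam_idG : (gamMap (mLab M V).lab (ellM M V) (A := Sb.empty (mLab M V).L.ss)
      (A' := Sb.empty (sing M)) (fun _ h => h)).comp (mF φ l).idG =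
    (asmn (mLab M V).lab (Sb.empty (sing M)) 2).comp (SS.pair (lbM φ l) (SS.Map.id (sing M))) := by
  apply SS.Map.ext
  intro p x
  refine Subtype.ext ?_
  ext c
  refine (mem_gim (ellM M V)).trans (Iff.trans ?_ (mem_asmF (l := (mLab M V).lab)
    (A := Sb.empty (sing M)) (F := ((mF φ l).idx (p := p) x : Finset ((mLab M V).L.obj p)))
    (x := x)).symm)
  have hx : ∀ s ∈ (mF φ l).idx (p := p) x, (ellM M V).app (p := p) s = x := by
    intro s hs
    obtain ⟨u, -, rfl⟩ := Finset.mem_map.1 hs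
    rfl
  constructor
  · rintro ⟨⟨b, hb, rfl⟩, -⟩
    obtain ⟨s, hs, rfl⟩ := (mF φ l).mem_idF.1 hb
    exact ⟨hs, hx s hs, fun h => h⟩
  · rintro ⟨h1, h2, -⟩
    refine ⟨⟨(TLab.toL c.1, c.1), (mF φ l).mem_idF.2 ⟨c.1, h1, rfl⟩, ?_⟩, fun h => h⟩
    exact Prod.ext rfl ((hx c.1 h1).trans h2.symm)

/-- **the quadratic correction on equal labels** -/
theorem pull_KK_ell {w : Cc (sing (PV V))} (hw : (dcP V).Cl w (oV V)) {q : ℕ} {y : Cc (sing M)}
    (hq : Cc.IsDeg q y) :
    Cc.pull (mF φ l).idG (KK (mLab M V).lab (Sb.empty _) 0 0 (Cc.pull (ellM M V) y)) =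
      ∑ k ∈ range (q + 1), Cc.cup 1 (Cc.pw (Cc.pull (singMap l) w) k) (Cc.cup (k + 1) y y) := by
  have h1 := pull_KK (l := (mLab M V).lab) (ellM M V) (A := Sb.empty (mLab M V).L.ss)
    (A' := Sb.empty (sing M)) (fun _ h => h) (y := y) (fun _ _ h => h.elim) 0 0
  have h2 : Cc.pull (mF φ l).idG (KK (mLab M V).lab (Sb.empty _) 0 0 (Cc.pull (ellM M V) y)) =
      Cc.pull (SS.pair (lbM φ l) (SS.Map.id (sing M))) (Cc.pull (asmn (mLab M V).lab
        (Sb.empty (sing M)) 2) (KK (mLab M V).lab (Sb.empty (sing M)) 0 0 y)) := by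
    rw [← h1]
    exact congrArg (fun f : SS.Map (sing M) (Gam (mLab M V).lab (Sb.empty (sing M))) =>
      Cc.pull f (KK (mLab M V).lab (Sb.empty (sing M)) 0 0 y)) (gam_idG φ l)
  have h3 := asm_KK_sum (l := (mLab M V).lab) (A := Sb.empty (sing M)) (y := y)
    (fun _ _ h => h.elim) 0 0 (q + 1) (fun k hk => Cc.cup_eq_zero hq y (by omega))
  rw [h2]
  have h4 : Cc.pull (asmn (mLab M V).lab (Sb.empty (sing M)) 2)
      (KK (mLab M V).lab (Sb.empty (sing M)) 0 0 y) =
      Cc.pull (pid (GLn.incl (mLab M V).lab 2) (sing M)) (∑ k ∈ range (q + 1),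
        Cc.cup 1 (Cc.pull (SS.fst (TJ.GL (mLab M V).lab) (sing M))
          (trl (mLab M V).lab (vol (mLab M V).lab (0 + k))))
        (Cc.pull (SS.snd (TJ.GL (mLab M V).lab) (sing M)) (Cc.cup (0 + k + 1) y y))) := by
    rw [← h3]
    rfl
  rw [h4, pull_sum, pull_sum]
  refine sum_congr rfl fun k _ => ?_
  have h5 : Cc.pw (Cc.pull (singMap l) w) k = Cc.pull (lbM φ l) (tln (mLab M V).lab 2 k) := by
    rw [pull_lbM_tln φ l hw k, Cc.pull_pw]
  rw [pull_cup, pull_cup, zero_add, h5]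
  rfl

/-- the sum over the two labels of a cochain of `M` is zero -/
theorem pull_hat_ell (y : Cc (sing M)) :
    Cc.pull (mF φ l).idG (hat (mLab M V).lab (Sb.empty _) (Cc.pull (ellM M V) y)) = 0 := by
  have h1 := pull_hat (l := (mLab M V).lab) (ellM M V) (A := Sb.empty (mLab M V).L.ss)
    (A' := Sb.empty (sing M)) (fun _ h => h) (y := y) (fun _ _ h => h.elim)
  have h2 : Cc.pull (mF φ l).idG (hat (mLab M V).lab (Sb.empty _) (Cc.pull (ellM M V) y)) =
      Cc.pull (SS.pair (lbM φ l) (SS.Map.id (sing M))) (Cc.pull (asmn (mLab M V).lab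
        (Sb.empty (sing M)) 2) (hat (mLab M V).lab (Sb.empty (sing M)) y)) := by
    rw [← h1]
    exact congrArg (fun f : SS.Map (sing M) (Gam (mLab M V).lab (Sb.empty (sing M))) =>
      Cc.pull f (hat (mLab M V).lab (Sb.empty (sing M)) y)) (gam_idG φ l)
  have h3 : Cc.pull (asmn (mLab M V).lab (Sb.empty (sing M)) 2)
      (hat (mLab M V).lab (Sb.empty (sing M)) y) = 0 :=
    asmn_hat (A := Sb.empty (sing M)) even_two (fun _ _ h => h.elim)
  exact h2.trans ((congrArg (Cc.pull (SS.pair (lbM φ l) (SS.Map.id (sing M)))) h3).trans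
    (pull_zero _))

end

/-! ### the value -/

section value

variable {M : Type} [TopologicalSpace M] [CompactSpace M] [T2Space M]
  {V : Type} [NormedAddCommGroup V] [InnerProductSpace ℝ V] [FiniteDimensional ℝ V]
  {W : Type} [NormedAddCommGroup W] [NormedSpace ℝ W] {i q : ℕ}
  {φ : (V × W) ≃L[ℝ] (Fin (i + 1) → ℝ)} {l : C(M, PV V)}

theorem uY1_mF : (mF φ l).uY1 (cx (i + 1)) = muL (ellM M V) i := by
  apply SS.Map.ext
  rintro p ⟨s, z⟩
  refine ((mF φ l).uY1_app (cx (i + 1)) (p := p) s z).trans ?_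
  apply ContinuousMap.ext
  intro t
  show smP (i + 1) M (shv φ (1, (toM s t).2) (toC ((cx (i + 1)).app z) t), (toM s t).1) = _
  rw [shv_one]
  rfl

theorem hcx {K : ℕ} : ∀ {p : ℕ} (x : (SN K).obj p), (SN.base K).mem x →
    (ptS (∞ : T0.Sph K)).mem ((cx K).app x) := fun _ hx => cx_base hx

theorem vn_jR_b {y : Cc (sing M)} (hq : Cc.IsDeg q y) (hy : Cc.d y = 0) :
    Vn (missZ (zT (i + 1) M)) (jR i hq hy).b := (jtD i hq hy).vn_b.mono fun _ h => missZ_zT.1 h

theorem vn_jR_c {y : Cc (sing M)} (hq : Cc.IsDeg q y) (hy : Cc.d y = 0) :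
    Vn (missZ (zT (i + 1) M)) (jR i hq hy).c := (jtD i hq hy).vn_c.mono fun _ h => missZ_zT.1 h

/-- the base condition of the graph -/
theorem base_lamG {G : C(TT (i + 1) M, TT (i + 1) M)} (hG0 : G ∞ = ∞) {p : ℕ}
    (x : ((sing M).prod (SN (i + 1))).obj p) (hx : (bdX (sing M) (i + 1)).mem x) :
    (bsT (i + 1) M).mem (((singMap G).comp (muT (i + 1) M)).app x) := fun t => by
  have h1 : toC ((muT (i + 1) M).app x) t = ∞ := muT_infty (i + 1) M hx t
  show G (toC ((muT (i + 1) M).app x) t) = ∞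
  rw [h1, hG0]

/-- **The generalised functional square of the graph of the Kahn-Priddy map.** -/
theorem theta_lamG {Lf : C(OnePoint ((Fin (i + 1) → ℝ) × PV V), T0.Sph (i + 1))} (h : IsLam φ Lf)
    {G : C(TT (i + 1) M, TT (i + 1) M)} (hG0 : G ∞ = ∞)
    (hG : ∀ (z : T0.Sph (i + 1)) (x : M), G (smP (i + 1) M (z, x)) =
      smP (i + 1) M (Lf (smP (i + 1) (PV V) (z, l x)), x))
    {w : Cc (sing (PV V))} (hw : (dcP V).Cl w (oV V)) {y : Cc (sing M)} (hq : Cc.IsDeg q y)
    (hy : Cc.d y = 0) :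
    (Cc.cupC (sing M)).Coh (theta (jR i hq hy) ((singMap G).comp (muT (i + 1) M))
      (base_lamG hG0)) (∑ k ∈ range (q + 1), Cc.cup 1 (Cc.pw (Cc.pull (singMap l) w) k)
        (Cc.cup (k + 1) y y)) := by
  have e0 := mF_MX h hG
  have hz : (Cc.cupC (mLab M V).L.ss).Coh (Cc.pull (ellM M V) y)
      (DstN (i + 1) (Cc.pull ((mF φ l).uY1 (cx (i + 1))) (jR i hq hy).b)) := by
    rw [uY1_mF]
    exact (DstN_ell hq hy (ellM M V)).symm
  have hk : (Cc.cupC (mLab M V).L.ss).Coh 0 (theta (jR i hq hy) ((mF φ l).uY1 (cx (i + 1)))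
      ((mF φ l).uY1_base hcx (mF_pointed φ l))) := by
    have h1 : (Cc.cupC (mLab M V).L.ss).Coh
        (theta (jR i hq hy) (muL (ellM M V) i) (muL_infty (ellM M V))) 0 :=
      (theta_mono (jtD i hq hy) (fun σ h => mis_of_bsT σ h) (hm := muL_base (ellM M V))).symm.trans
        (theta_ell hq hy (ellM M V))
    have h2 := theta_congr (jR i hq hy) (uY1_mF (φ := φ) (l := l)).symm
      (hm := muL_infty (ellM M V)) (hm' := (mF φ l).uY1_base hcx (mF_pointed φ l))
    exact (CupC.Coh.trans (CupC.Coh.of_eq h2.symm) h1).symm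
  have h1 := (mF φ l).theta_fam1 hcx (mF_pointed φ l) (isClosed_zT (i + 1) M)
    (infty_notMem_zT (i + 1) M) (jR i hq hy) (vn_jR_b hq hy) (vn_jR_c hq hy) hz hk
  have h3 := theta_congr (jR i hq hy) e0 (hm := (mF φ l).MX_base hcx (mF_pointed φ l))
    (hm' := base_lamG hG0)
  refine CupC.Coh.trans (CupC.Coh.of_eq h3.symm) (CupC.Coh.trans h1 (CupC.Coh.of_eq ?_))
  have h4 : KK (mLab M V).lab (Sb.empty (mLab M V).L.ss) 0 0 (Cc.pull (ellM M V) y) +
      hat (mLab M V).lab (Sb.empty (mLab M V).L.ss) (0 : Cc (mLab M V).L.ss) =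
      KK (mLab M V).lab (Sb.empty (mLab M V).L.ss) 0 0 (Cc.pull (ellM M V) y) := by
    rw [hat_zero, add_zero]
  exact (congrArg (Cc.pull (mF φ l).idG) h4).trans (pull_KK_ell φ l hw hq)

/-- **The transfer of `y` is null.** -/
theorem DstN_lamG {Lf : C(OnePoint ((Fin (i + 1) → ℝ) × PV V), T0.Sph (i + 1))} (h : IsLam φ Lf)
    {G : C(TT (i + 1) M, TT (i + 1) M)}
    (hG : ∀ (z : T0.Sph (i + 1)) (x : M), G (smP (i + 1) M (z, x)) =
      smP (i + 1) M (Lf (smP (i + 1) (PV V) (z, l x)), x))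
    {y : Cc (sing M)} (hq : Cc.IsDeg q y) (hy : Cc.d y = 0) :
    (Cc.cupC (sing M)).Coh (DstN (i + 1) (Cc.pull ((singMap G).comp (muT (i + 1) M))
      (jR i hq hy).b)) 0 := by
  have e0 := mF_MX h hG
  have hz : (Cc.cupC (mLab M V).L.ss).Coh (Cc.pull (ellM M V) y)
      (DstN (i + 1) (Cc.pull ((mF φ l).uY1 (cx (i + 1))) (jR i hq hy).b)) := by
    rw [uY1_mF]
    exact (DstN_ell hq hy (ellM M V)).symm
  have h1 := (mF φ l).DstN_fam1 hcx (mF_pointed φ l) (isClosed_zT (i + 1) M)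
    (infty_notMem_zT (i + 1) M) (jR i hq hy) (vn_jR_b hq hy) hz
  have h2 : Cc.pull ((mF φ l).MX.comp (PFam.jm (TSet.sing M) (cx (i + 1)))) (jR i hq hy).b =
      Cc.pull ((singMap G).comp (muT (i + 1) M)) (jR i hq hy).b :=
    congrArg (fun f : SS.Map ((sing M).prod (SN (i + 1))) (sing (TT (i + 1) M)) =>
      Cc.pull f (jR i hq hy).b) e0
  rw [h2] at h1
  exact CupC.Coh.trans h1 (CupC.Coh.of_eq (pull_hat_ell φ l y))

/-- the sum only depends on the class of `w` -/
theorem sum_pw_coh {X : SS} {u v χ : Cc X} (hv : Cc.d v = 0) (h : u = v + Cc.d χ) (N : ℕ)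
    {y : Cc X} (hy : Cc.d y = 0) :
    (Cc.cupC X).Coh (∑ k ∈ range N, Cc.cup 1 (Cc.pw u k) (Cc.cup (k + 1) y y))
      (∑ k ∈ range N, Cc.cup 1 (Cc.pw v k) (Cc.cup (k + 1) y y)) := by
  choose β hβ using fun k => Cc.pw_coh hv h k
  refine ⟨(∑ k ∈ range N, Cc.cup 1 (β k) (Cc.cup (k + 1) y y) : Cc X), ?_⟩
  show (∑ k ∈ range N, Cc.cup 1 (Cc.pw u k) (Cc.cup (k + 1) y y)) +
      (∑ k ∈ range N, Cc.cup 1 (Cc.pw v k) (Cc.cup (k + 1) y y)) =
    Cc.d (∑ k ∈ range N, Cc.cup 1 (β k) (Cc.cup (k + 1) y y))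
  rw [d_sum, ← sum_add_distrib]
  refine sum_congr rfl fun k _ => ?_
  have h1 : Cc.d (Cc.cup (k + 1) y y) = 0 := by
    rw [TJ.d_cup, hy, cup_zero_left, cup_zero_right, add_zero, zero_add, cc_add_self]
  rw [d_cup_one, h1, cup_zero_right, add_zero, ← cup_add_left, hβ k,
    add_comm (Cc.pw v k), add_assoc, cc_add_self, add_zero]

/-- **The generalised functional square of the graph of the Kahn-Priddy map**, for any cocycle in the
class of the double cover. -/
theorem theta_lamG_of_coh {Lf : C(OnePoint ((Fin (i + 1) → ℝ) × PV V), T0.Sph (i + 1))}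
    (h : IsLam φ Lf) {G : C(TT (i + 1) M, TT (i + 1) M)} (hG0 : G ∞ = ∞)
    (hG : ∀ (z : T0.Sph (i + 1)) (x : M), G (smP (i + 1) M (z, x)) =
      smP (i + 1) M (Lf (smP (i + 1) (PV V) (z, l x)), x))
    {u : Cc (sing M)} (hu : (Cc.cupC (sing M)).Coh (Cc.pull (singMap l) (wP V)) u)
    {y : Cc (sing M)} (hq : Cc.IsDeg q y) (hy : Cc.d y = 0) :
    (Cc.cupC (sing M)).Coh (theta (jR i hq hy) ((singMap G).comp (muT (i + 1) M))
      (base_lamG hG0)) (∑ k ∈ range (q + 1), Cc.cup 1 (Cc.pw u k) (Cc.cup (k + 1) y y)) := by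
  obtain ⟨w, hw⟩ := exists_wV (V := V)
  obtain ⟨χ', -, hχ', -⟩ := (cl_wP V).coh hw
  refine (theta_lamG h hG0 hG hw hq hy).trans ?_
  obtain ⟨χ, hχ⟩ : ∃ χ : Cc (sing M), Cc.pull (singMap l) (wP V) + u = Cc.d χ := hu
  have h1 : u = Cc.pull (singMap l) (wP V) + Cc.d χ := by
    rw [← hχ, ← add_assoc, cc_add_self, zero_add]
  have h2 : Cc.d (Cc.pull (singMap l) (wP V)) = 0 := by rw [← pull_d, d_wP, pull_zero]
  have h3 : Cc.pull (singMap l) w = Cc.pull (singMap l) (wP V) + Cc.d (Cc.pull (singMap l) χ') := by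
    rw [hχ', pull_add, pull_d]
  exact (sum_pw_coh h2 h3 (q + 1) hy).trans (sum_pw_coh h2 h1 (q + 1) hy).symm

end value

end Vale.Agent.P263.FR
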