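import Vale.Agent.P263.KJ.FamTheta

/-!
# P263, block V5-E: the integral of a family of sheets over the cube

`Strict.DstN_coh`, `DstN_gen` : the integral of `b` over the cube for the small-simplex comparison and
for a sum of sheets.  `PFam.DstN_fam0`, `PFam.DstN_fam1` : the integral of `b` over the cube for a
family of sheets is the class of `idG^* (hat z)`, if `z` is the class of the integral for the
universal sheet at time zero (one).
-/

open Finset OnePoint Topology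

namespace Vale.Agent.P263.TJ

open Vale.Agent.P263.S Vale.Agent.P263.E Vale.Agent.P263.H83 CupC

/-- the integral and small simplices -/
theorem Strict.DstN_coh {l : LabS} {B : SS} {A : Sb B} {U : TSet} {A' : Sb B}
    {a : SS.Map U.ss (Gam l A)} {M : SS.Map U.ss B}
    {Sm : ∀ n : ℕ, Set (U.obj n)} {i : ℕ}
    (hs : Strict A' a M Sm) (D : SqD A (i + 1)) (hb : Vn A' D.b)
    (P : Sb U.ss) (hP : ∀ {p : ℕ} (u : U.ss.obj p), P.mem u → u ∈ Sm p)
    {X : SS} (m : SS.Map (X.prod (SN (i + 1))) U.ss)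
    (hm : ∀ {p : ℕ} (x : (X.prod (SN (i + 1))).obj p), (bdX X (i + 1)).mem x → P.mem (m.app x))
    {mM : SS.Map (X.prod (SN (i + 1))) B} {ma : SS.Map (X.prod (SN (i + 1))) (Gam l A)}
    (hmM : mM = M.comp m) (hma : ma = a.comp m) :
    (Cc.cupC X).Coh (DstN (i + 1) (Cc.pull mM D.b)) (DstN (i + 1) (Cc.pull ma (hat l A D.b))) := by
  have hP' : ∀ {w : Cc U.ss}, Vn hs.loc.sb w → Vn P w := fun hw => hw.mono fun u hu => hP u hu
  obtain ⟨η, hη, hη0⟩ := hs.loc.exists'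
    (u := Cc.pull M D.b + Cc.pull a (TJ.hat l A D.b))
    (by rw [d_add, ← pull_d, ← pull_d, d_hat D.vn_b, D.d_b, hat_zero, pull_zero, pull_zero,
      add_zero])
    (fun p u hu => by
      show Cc.pull M D.b p u + Cc.pull a (TJ.hat l A D.b) p u = 0
      rw [hs.hat_small hb u hu]
      exact CharTwo.add_self_eq_zero _)
  subst hmM hma
  refine ⟨DstN (i + 1) (Cc.pull m η), ?_⟩
  show DstN (i + 1) (Cc.pull m (Cc.pull M D.b)) +
    DstN (i + 1) (Cc.pull m (Cc.pull a (hat l A D.b))) = Cc.d (DstN (i + 1) (Cc.pull m η))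
  rw [← DstN_add, ← pull_add, ← hη, pull_d]
  exact DstN_d (((hP' hη0).pull m).mono fun x hx => hm x hx)

variable {T B X : SS} {T₀ : Sb T} {i : ℕ} {l : LabS}

/-- the integral of a sum of sheets -/
theorem DstN_gen (D : SqD T₀ (i + 1)) {Y : SS.Map (B.prod (SN (i + 1))) T}
    {hY : ∀ {p : ℕ} (x : (B.prod (SN (i + 1))).obj p), (bdX B (i + 1)).mem x → T₀.mem (Y.app x)}
    {z : Cc B} (hz : (Cc.cupC B).Coh z (DstN (i + 1) (Cc.pull Y D.b)))
    (f : SS.Map X (Gam l (Sb.empty B))) {m : SS.Map (X.prod (SN (i + 1))) (Gam l T₀)}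
    (h : m = (gamMap l (A := prodB (Sb.empty B) (SN.base (i + 1))) Y
      (fun x hx => hY x (hx.elim False.elim id))).comp
      ((asmW l (Sb.empty B) (SN.base (i + 1))).comp
      (SS.pair (f.comp (SS.fst X (SN (i + 1)))) (SS.snd X (SN (i + 1)))))) :
    (Cc.cupC X).Coh (DstN (i + 1) (Cc.pull m (hat l T₀ D.b)))
      (Cc.pull f (hat l (Sb.empty B) z)) := by
  obtain ⟨E, rfl, -⟩ := exists_ShD (hY := hY) D hz (CupC.Coh.refl (A := Cc.cupC B) (theta D Y hY))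
  have hY' : ∀ {p : ℕ} (x : (B.prod (SN (i + 1))).obj p),
      (prodB (Sb.empty B) (SN.base (i + 1))).mem x → T₀.mem (Y.app x) :=
    fun x hx => hY x (hx.elim False.elim id)
  obtain ⟨m1, hm1d⟩ : ∃ m1, m1 = (asmW l (Sb.empty B) (SN.base (i + 1))).comp
      (SS.pair (f.comp (SS.fst X (SN (i + 1)))) (SS.snd X (SN (i + 1)))) := ⟨_, rfl⟩
  have hm1 : ∀ {p : ℕ} (x : (X.prod (SN (i + 1))).obj p), (bdX X (i + 1)).mem x →
      (Gam.base l (prodB (Sb.empty B) (SN.base (i + 1)))).mem (m1.app x) := by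
    intro p x hx
    rw [hm1d]
    exact asmW_bd (i + 1) _ hx
  have hbb : Cc.pull (gamMap l Y hY') (hat l T₀ D.b) =
      hat l (prodB (Sb.empty B) (SN.base (i + 1))) (sn (i + 1) E.z + Cc.d E.e) := by
    rw [pull_hat Y hY' D.vn_b, E.g_b]
  have hb : ∀ v : Cc (Gam l (Sb.empty B)),
      ∀ u : Cc (Gam l (prodB (Sb.empty B) (SN.base (i + 1)))),
      Cc.pull (asmW l (Sb.empty B) (SN.base (i + 1))) u = sn (i + 1) v →
      Cc.pull m1 u = sn (i + 1) (Cc.pull f v) := by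
    intro v u huv
    rw [hm1d, ← pull_sn, ← huv]
    rfl
  have h1 : Cc.pull m (hat l T₀ D.b) = sn (i + 1) (Cc.pull f (hat l (Sb.empty B) E.z)) +
      Cc.d (Cc.pull m1 (hat l (prodB (Sb.empty B) (SN.base (i + 1))) E.e)) := by
    have h2 : Cc.pull m (hat l T₀ D.b) = Cc.pull m1 (Cc.pull (gamMap l Y hY') (hat l T₀ D.b)) := by
      rw [h, hm1d]
      rfl
    rw [h2, hbb, hat_add, ← d_hat E.he, pull_add, hb _ _ (asmW_hat E.hz (i + 1)), pull_d]
  rw [h1, DstN_add, DstN_sn, DstN_d (((Gam.hat_vn _).pull m1).mono fun x hx => hm1 x hx)]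
  refine ⟨DstN (i + 1) (Cc.pull m1 (hat l (prodB (Sb.empty B) (SN.base (i + 1))) E.e)), ?_⟩
  exact cc_cancel (Cc.pull f (hat l (Sb.empty B) E.z)) _

end Vale.Agent.P263.TJ

namespace Vale.Agent.P263.KJ

open Vale.Agent.P263.S Vale.Agent.P263.E Vale.Agent.P263.H83 Vale.Agent.P263.G2
  Vale.Agent.P263.TJ

namespace PFam

variable {X : TSet} {T : TLab} {A Y : Type} [TopologicalSpace A] [TopologicalSpace Y]
  (𝓕 : PFam X T A Y) {i : ℕ} {cA : SS.Map (SN (i + 1)) (G2.sing A)} {a : A}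
  (hcA : ∀ {p : ℕ} (τ : (SN (i + 1)).obj p), (SN.base (i + 1)).mem τ → (ptS a).mem (cA.app τ))
  (hP : 𝓕.Pointed a) {Z : Set (OnePoint Y)} (hZ : IsClosed Z) (hZi : (∞ : OnePoint Y) ∉ Z)
  (D : SqD (ptS (∞ : OnePoint Y)) (i + 1)) (hb : Vn (missZ Z) D.b)

include hcA hP hZ hZi hb in
/-- **The integral of a family of sheets over the cube**, sheets at time zero. -/
theorem DstN_fam0 {z : Cc T.L.ss}
    (hz : (Cc.cupC T.L.ss).Coh z (DstN (i + 1) (Cc.pull (𝓕.uY0 cA) D.b))) :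
    (Cc.cupC X.ss).Coh (DstN (i + 1) (Cc.pull (𝓕.MX.comp (jm X cA)) D.b))
      (Cc.pull 𝓕.idG (hat T.lab (Sb.empty T.L.ss) z)) := by
  have h1 := Strict.DstN_coh (𝓕.strict hZ hZi) D hb (PB X a)
    (fun u hu => 𝓕.pb_sm hP hZi u hu) (jm X cA) (fun u hu => jm_base hcA u hu) rfl rfl
  exact h1.trans (DstN_gen D (hY := 𝓕.uY0_base hcA hP) hz 𝓕.idG (𝓕.aX0_eq hcA hP))

include hcA hP hZ hZi hb in
/-- **The integral of a family of sheets over the cube**, sheets at time one. -/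
theorem DstN_fam1 {z : Cc T.L.ss}
    (hz : (Cc.cupC T.L.ss).Coh z (DstN (i + 1) (Cc.pull (𝓕.uY1 cA) D.b))) :
    (Cc.cupC X.ss).Coh (DstN (i + 1) (Cc.pull (𝓕.MX.comp (jm X cA)) D.b))
      (Cc.pull 𝓕.idG (hat T.lab (Sb.empty T.L.ss) z)) :=
  𝓕.DstN_fam0 hcA hP hZ hZi D hb (hz.trans (𝓕.coh_time hcA hP D).symm)

end PFam

end Vale.Agent.P263.KJ
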