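import Vale.Agent.P263.KJ.LamSq
import Vale.Agent.P263.FR.H754.FamDst
import Vale.Agent.P263.FR.Base

/-!
# P263, block V5-E1: the generalised functional square of the graph of the Kahn-Priddy map

`M` compact, `l : M → PV V`, `G : (ℝᴷ × M)⁺ → (ℝᴷ × M)⁺` the graph `(e, x) ↦ (Lf (e, l x), x)` of the
(suspended) literal Kahn-Priddy map.

* `asm_KK_sum` : the assembly of the quadratic correction of any cochain.
* `mLab` : the labels `(x, u)`, `u` a unit vector; `mF φ l` : the two sheets over `M`.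
* `theta_lamG` : the generalised functional square of `G` on the cocycle `y` of degree `q` is
  `∑_{k ≤ q} w^k (y ∪_k y)`, `w` the pull back of the class of the double cover.
* `DstN_lamG` : the transfer of `y` is null.
-/

open CategoryTheory MonoidalCategory Filter Topology OnePoint Finset
open scoped InnerProductSpace RealInnerProductSpace

namespace Vale.Agent.P263.TJ

open Vale.Agent.P263.S hiding sn sn_add
open Vale.Agent.P263.E Vale.Agent.P263.H83

/-- `u ∪_i v = 0` for `i` larger than the degree of `u` -/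
theorem Cc.cup_eq_zero {X : SS} {q j : ℕ} {u : Cc X} (hu : Cc.IsDeg q u) (v : Cc X)
    (h : q + 1 < j) : Cc.cup j u v = 0 := by
  funext p x
  rw [Cc.cup_def, cupJ_eq_zero (hu.co x) h]
  rfl

variable {l : LabS} {K : SS} {A : Sb K}

/-- **the assembly of the quadratic correction** -/
theorem asm_KK_sum {y : Cc K} (hy : Vn A y) (j m N : ℕ)
    (hN : ∀ k, N ≤ k → Cc.cup (j + k + 1) y y = 0) :
    Cc.pull (asm l A) (KK l A j m y) = ∑ k ∈ range N,
      Cc.cup 1 (Cc.pull (SS.fst (TJ.GL l) K) (trl l (vol l (m + k))))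
        (Cc.pull (SS.snd (TJ.GL l) K) (Cc.cup (j + k + 1) y y)) := by
  have h0 : ∀ k, Cc.pull (asm l A) (Tr A (qt l j m y k)) =
      Cc.cup 1 (Cc.pull (SS.fst (TJ.GL l) K) (trl l (vol l (m + k))))
        (Cc.pull (SS.snd (TJ.GL l) K) (Cc.cup (j + k + 1) y y)) := fun k =>
    asm_Tr (A := A) (C := qt l j m y k) (c := vol l (m + k)) (y := Cc.cup (j + k + 1) y y)
      (hy.cup_left _ _) (dgl_qt j m y k)
  funext p z
  rw [pull_apply]
  have h1 : KK l A j m y p = Tr A (∑ k ∈ range (p + N + 1), qt l j m y k) p :=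
    KK_eq j m y (by omega)
  have h2 : Cc.pull (asm l A) (Tr A (∑ k ∈ range (p + N + 1), qt l j m y k)) =
      ∑ k ∈ range N, Cc.cup 1 (Cc.pull (SS.fst (TJ.GL l) K) (trl l (vol l (m + k))))
        (Cc.pull (SS.snd (TJ.GL l) K) (Cc.cup (j + k + 1) y y)) := by
    rw [Tr_sum, pull_sum]
    refine (sum_congr rfl fun k _ => h0 k).trans ?_
    refine (sum_subset (range_subset_range.2 (by omega)) fun k _ hk => ?_).symm
    rw [mem_range] at hk
    rw [hN k (by omega), pull_zero, cup_zero_right]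
  rw [h1]
  exact congrFun (congrFun h2 p) z

end Vale.Agent.P263.TJ

namespace Vale.Agent.P263.FR

open Vale.Agent.P263.S hiding sn sn_add
open Vale.Agent.P263.E Vale.Agent.P263.H83 Vale.Agent.P263.G2 Vale.Agent.P263.TJ
open Vale.Agent.P263.KJ CupC

/-! ### the labels -/

section labels

variable (M : Type) [TopologicalSpace M] (V : Type) [NormedAddCommGroup V]
  [InnerProductSpace ℝ V] [FiniteDimensional ℝ V]

/-- the second components are pairwise different at every point -/
def PDifM {p : ℕ} (F : Set (C(G2.Dl p, M × SV V))) : Prop :=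
  ∀ a ∈ F, ∀ b ∈ F, a ≠ b → ∀ t, (a t).2 ≠ (b t).2

omit [FiniteDimensional ℝ V] in
/-- the label system of the pairs of a point of `M` and a unit vector -/
noncomputable def mLab : TLab where
  L := TSet.sing (M × SV V)
  O := SO V
  ord c := ((toC c) pt0).2
  Good {p} F := PDifM M V (p := p) F
  good_map := by
    rintro p q f F h _ ⟨a, ha, rfl⟩ _ ⟨b, hb, rfl⟩ hab t
    exact h a ha b hb (fun hc => hab (by rw [hc])) _
  good_sub h h' a ha b hb := h a (h' ha) b (h' hb)
  good_inj := by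
    intro p F h i a ha b hb hab
    by_contra hne
    exact h a ha b hb hne _ hab

variable {M V}

/-- a label as a continuous map -/
def toM {p : ℕ} (s : (mLab M V).L.obj p) : C(G2.Dl p, M × SV V) := s

/-- the unit vector of a label -/
noncomputable def sV {p : ℕ} (s : C(G2.Dl p, M × SV V)) : C(G2.Dl p, SV V) :=
  ContinuousMap.comp ⟨Prod.snd, continuous_snd⟩ s

/-- the labels over `x` with given unit vectors -/
def pairE {p : ℕ} (x : C(G2.Dl p, M)) : C(G2.Dl p, SV V) ↪ C(G2.Dl p, M × SV V) where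
  toFun u := x.prodMk u
  inj' := by
    intro u v h
    apply ContinuousMap.ext
    intro t
    exact congrArg (fun w : C(G2.Dl p, M × SV V) => (w t).2) h

theorem mem_map_pair {p : ℕ} {x : C(G2.Dl p, M)} {F : Finset C(G2.Dl p, SV V)}
    {s : C(G2.Dl p, M × SV V)} :
    s ∈ F.map (pairE x) ↔ sV s ∈ F ∧ ∀ t, (s t).1 = x t := by
  rw [Finset.mem_map]
  constructor
  · rintro ⟨u, hu, rfl⟩
    exact ⟨hu, fun _ => rfl⟩
  · rintro ⟨h1, h2⟩
    refine ⟨sV s, h1, ?_⟩
    apply ContinuousMap.ext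
    intro t
    exact Prod.ext (h2 t).symm rfl

end labels

/-! ### the two sheets -/

section fam

variable {M : Type} [TopologicalSpace M] [CompactSpace M] [T2Space M]
  {V : Type} [NormedAddCommGroup V] [InnerProductSpace ℝ V] [FiniteDimensional ℝ V]
  {W : Type} [NormedAddCommGroup W] [NormedSpace ℝ W] {K : ℕ}
  (φ : (V × W) ≃L[ℝ] (Fin K → ℝ)) (l : C(M, PV V))

/-- **the two sheets over `M`** -/
noncomputable def mF : PFam (TSet.sing M) (mLab M V) (T0.Sph K) ((Fin K → ℝ) × M) where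
  idx {p} x := ((lifts (l.comp (show C(G2.Dl p, M) from x))).map (pairE (p := p) x) :
    Finset (C(G2.Dl p, M × SV V)))
  mem_pull := by
    intro p q f x s
    refine (mem_map_pair (x := (x : C(G2.Dl q, M)).comp f)
      (s := (s : C(G2.Dl p, M × SV V)))).trans ?_
    have h := (lamF φ).mem_pull f (l.comp (show C(G2.Dl q, M) from x)) (sV (V := V) (M := M) s)
    constructor
    · rintro ⟨h1, h2⟩
      obtain ⟨s', hs', h3⟩ := h.1 h1
      refine ⟨pairE (p := q) x s', Finset.mem_map.2 ⟨s', hs', rfl⟩, ?_⟩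
      apply ContinuousMap.ext
      intro t
      exact Prod.ext (h2 t).symm (congrArg (fun w : C(G2.Dl p, SV V) => w t) h3)
    · rintro ⟨s', hs', rfl⟩
      obtain ⟨u, hu, rfl⟩ := Finset.mem_map.1 hs'
      exact ⟨h.2 ⟨u, hu, rfl⟩, fun _ => rfl⟩
  good := by
    intro p x a ha b hb hab t
    obtain ⟨u, hu, rfl⟩ := Finset.mem_map.1 (mem_coe.1 ha)
    obtain ⟨v, hv, rfl⟩ := Finset.mem_map.1 (mem_coe.1 hb)
    exact (lamF φ).good (p := p) (l.comp (show C(G2.Dl p, M) from x)) u hu v hv
      (fun h => hab (by rw [h])) t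
  val s τ χ := ⟨fun t => smP K M (shv φ (χ t, (toM s t).2) (τ t), (toM s t).1),
    (smP K M).continuous.comp (((continuous_shv φ).comp
    ((χ.continuous.prodMk (continuous_snd.comp (toM s).continuous)).prodMk τ.continuous)).prodMk
      (continuous_fst.comp (toM s).continuous))⟩
  val_pull _ _ _ _ := rfl
  disj := by
    intro p x s hs s' hs' hne τ t
    obtain ⟨u, hu, rfl⟩ := Finset.mem_map.1 hs
    obtain ⟨v, hv, rfl⟩ := Finset.mem_map.1 hs'
    rcases (lamF φ).disj (l.comp (show C(G2.Dl p, M) from x)) u hu v hv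
      (fun h => hne (by rw [h])) τ t with h | h
    · left
      have h' : shv φ (0, u t) (τ t) = ∞ := h
      show smP K M (shv φ (0, u t) (τ t), (show C(G2.Dl p, M) from x) t) = ∞
      rw [h', smP_infty]
    · right
      have h' : shv φ (0, v t) (τ t) = ∞ := h
      show smP K M (shv φ (0, v t) (τ t), (show C(G2.Dl p, M) from x) t) = ∞
      rw [h', smP_infty]

theorem mem_idx_mF {p : ℕ} {x : C(G2.Dl p, M)} {s : C(G2.Dl p, M × SV V)} :
    s ∈ (mF φ l).idx (p := p) x ↔ sV s ∈ lifts (l.comp x) ∧ ∀ t, (s t).1 = x t :=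
  mem_map_pair

theorem mF_pointed : (mF φ l).Pointed (∞ : T0.Sph K) := by
  intro p s τ χ t h
  show smP K M (shv φ (χ t, (toM s t).2) (τ t), (toM s t).1) = ∞
  rw [h, shv_infty, smP_infty]

theorem mF_card {p : ℕ} (x : (TSet.sing M).obj p) : ((mF φ l).idx x).card = 2 := by
  show ((lifts (l.comp (show C(G2.Dl p, M) from x))).map (pairE (p := p) x)).card = 2
  rw [card_map]
  exact card_lifts _

/-! ### the family is the graph of the literal map -/

variable {φ l}

theorem mF_MX {Lf : C(OnePoint ((Fin K → ℝ) × PV V), T0.Sph K)} (h : IsLam φ Lf)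
    {G : C(TT K M, TT K M)}
    (hG : ∀ (y : T0.Sph K) (x : M), G (smP K M (y, x)) = smP K M (Lf (smP K (PV V) (y, l x)), x)) :
    (mF φ l).MX.comp (PFam.jm (TSet.sing M) (cx K)) = (singMap G).comp (muT K M) := by
  apply SS.Map.ext
  intro p z
  apply ContinuousMap.ext
  intro t
  obtain ⟨x, hx⟩ : ∃ x : C(G2.Dl p, M), x = z.1 := ⟨_, rfl⟩
  show (mF φ l).mval z.1 (cxC z.2) t = G (smP K M (cxC z.2 t, toC z.1 t))
  have hx' : toC z.1 = x := hx.symm
  rw [hG, hx', ← hx]
  by_cases h1 : ∃ s ∈ lifts (l.comp x), shv φ (0, s t) (cxC z.2 t) ≠ ∞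
  · obtain ⟨s, hs, h1⟩ := h1
    have h2 : l (x t) = piP V (s t) := (mem_lifts.1 hs t).symm
    rw [h2, h.eq_sheet (s t) _ h1]
    refine (mF φ l).mval_of_mem (s := (pairE x s : C(G2.Dl p, M × SV V)))
      (Finset.mem_map.2 ⟨s, hs, rfl⟩) ?_
    intro h3
    have h4 : smP K M (shv φ (0, s t) (cxC z.2 t), x t) = ∞ := h3
    obtain ⟨y, hy⟩ := OnePoint.ne_infty_iff_exists.1 h1
    rw [← hy, smP_coe] at h4
    exact OnePoint.coe_ne_infty _ h4
  · push Not at h1
    obtain ⟨s, hs⟩ := exists_lift (l.comp x)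
    have hs' : s ∈ lifts (l.comp x) := mem_lifts.2 hs
    have h2 : l (x t) = piP V (s t) := (hs t).symm
    rw [h2, h.eq_infty (s t) _ (h1 s hs') (h1 _ (neg_mem_lifts hs')), smP_infty]
    rcases (mF φ l).mval_cases (p := p) x (cxC z.2) t with h2 | ⟨s', hs2, h2⟩
    · exact h2
    · rw [h2]
      obtain ⟨u, hu, rfl⟩ := Finset.mem_map.1 hs2
      show smP K M (shv φ (0, u t) (cxC z.2 t), x t) = ∞
      rw [h1 u hu, smP_infty]

end fam

end Vale.Agent.P263.FR
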